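import Mathlib

/-!
# The counting argument for evaluation codes (block AG-count)

`W n` = elements of pole order at most `n` of a `k`-algebra `T`, `ev : T → k^S` evaluation.
Nonzero elements of `W D` have at most `D + g` zeros, `ev (W D)` is a code with a good square.
-/

namespace Vale.Agent.P318.H591

open Finset Module

variable {k T S : Type*} [Field k] [CommRing T] [Algebra k T] [Fintype S] [DecidableEq S]

/-- The hypotheses: a filtration of `T` by finite dimensional spaces with the dimensions of a
curve of genus at most `g`, without zero divisors, and with enough functions. -/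
structure PoleFilt (W : ℕ → Submodule k T) (ev : T →ₐ[k] (S → k)) (g : ℕ) : Prop where
  mono : Monotone W
  mul : ∀ i j f h, f ∈ W i → h ∈ W j → f * h ∈ W (i + j)
  fin : ∀ J, FiniteDimensional k (W J)
  upper : ∀ J, finrank k (W J) ≤ J + 1
  lower : ∀ J, J + 1 ≤ finrank k (W J) + g
  reg : ∀ i j h f, h ∈ W i → h ≠ 0 → f ∈ W j → h * f = 0 → f = 0
  sep : ∀ P : S, ∃ J, ∃ f ∈ W J, ev f = Pi.single P 1

variable {W : ℕ → Submodule k T} {ev : T →ₐ[k] (S → k)} {g : ℕ}

/-- One level contains functions separating all points. -/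
lemma PoleFilt.exists_sep (H : PoleFilt W ev g) :
    ∃ J0, ∀ P : S, ∃ f ∈ W J0, ev f = Pi.single P 1 := by
  choose J f hf hev using H.sep
  exact ⟨univ.sup J, fun P => ⟨f P, H.mono (Finset.le_sup (mem_univ P)) (hf P), hev P⟩⟩

/-- Number of zeros of an element of `W D`. -/
theorem PoleFilt.card_zeros_le [DecidableEq k] (H : PoleFilt W ev g) {D : ℕ} {h : T}
    (hD : h ∈ W D) (h0 : h ≠ 0) : (univ.filter fun P => ev h P = 0).card ≤ D + g := by
  classical
  obtain ⟨J0, hJ0⟩ := H.exists_sep
  set Z : Finset S := univ.filter fun P => ev h P = 0 with hZ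
  set J := D + J0 with hJ
  have := H.fin J
  have := H.fin J0
  -- restriction of the values to `Z`
  let ρ : W J →ₗ[k] (Z → k) :=
    (LinearMap.funLeft k k (fun P : Z => (P : S))) ∘ₗ ev.toLinearMap ∘ₗ (W J).subtype
  have hρ : ∀ f : W J, ∀ P : Z, ρ f P = ev (f : T) P := fun _ _ => rfl
  have hsurj : LinearMap.range ρ = ⊤ := by
    rw [eq_top_iff]
    intro v _
    have hv : v = ∑ P : Z, v P • (Pi.single P 1 : Z → k) := by
      ext P
      simp [Finset.sum_apply, Pi.single_apply]
    rw [hv]
    refine Submodule.sum_mem _ fun P _ => Submodule.smul_mem _ _ ?_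
    obtain ⟨f, hf, hfe⟩ := hJ0 P
    refine ⟨⟨f, H.mono (by omega) hf⟩, ?_⟩
    ext P'
    rw [hρ]
    simp only [hfe]
    by_cases hPP : P' = P
    · subst hPP; simp
    · have : (P' : S) ≠ P := fun h => hPP (Subtype.ext h)
      simp [hPP, this]
  -- multiplication by `h`
  let μ : W J0 →ₗ[k] W J :=
    { toFun := fun f => ⟨h * f, H.mul _ _ _ _ hD f.2⟩
      map_add' := fun a b => Subtype.ext (by simp [mul_add])
      map_smul' := fun c a => Subtype.ext (by simp) }
  have hμinj : Function.Injective μ := by
    rw [← LinearMap.ker_eq_bot, LinearMap.ker_eq_bot']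
    intro f hf
    have h1 : h * (f : T) = 0 := congrArg Subtype.val hf
    exact Subtype.ext (H.reg _ _ _ _ hD h0 f.2 h1)
  have hμker : LinearMap.range μ ≤ LinearMap.ker ρ := by
    rintro _ ⟨f, rfl⟩
    rw [LinearMap.mem_ker]
    ext P
    rw [hρ]
    have h1 : ev (h * (f : T)) (P : S) = 0 := by
      rw [map_mul, Pi.mul_apply]
      have : ev h (P : S) = 0 :=
        (Finset.mem_filter.1 (show (P : S) ∈ univ.filter (fun P => ev h P = 0) from P.2)).2
      rw [this, zero_mul]
    exact h1
  have h1 : finrank k (LinearMap.range μ) = finrank k (W J0) :=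
    LinearMap.finrank_range_of_inj hμinj
  have h2 : finrank k (LinearMap.range μ) ≤ finrank k (LinearMap.ker ρ) :=
    Submodule.finrank_mono hμker
  have h3 := LinearMap.finrank_range_add_finrank_ker ρ
  rw [hsurj, finrank_top, Module.finrank_fintype_fun_eq_card, Fintype.card_coe] at h3
  have h4 := H.upper J
  have h5 := H.lower J0
  omega

/-- `ev` is injective on `W D` if there are enough points. -/
lemma PoleFilt.injOn [DecidableEq k] (H : PoleFilt W ev g) {D : ℕ}
    (hS : D + g < Fintype.card S) {f : T} (hf : f ∈ W D) (h0 : ev f = 0) : f = 0 := by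
  by_contra hne
  have h1 := H.card_zeros_le hf hne
  have h2 : (univ.filter fun P => ev f P = 0) = univ := by
    ext P; simp [h0]
  rw [h2, Finset.card_univ] at h1
  omega

/-- The code and its square. -/
theorem PoleFilt.code [DecidableEq k] (H : PoleFilt W ev g) {D : ℕ}
    (hS : D + g < Fintype.card S) :
    D + 1 ≤ finrank k ((W D).map ev.toLinearMap) + g ∧
    ∀ v ∈ Submodule.span k {x : S → k | ∃ c ∈ (W D).map ev.toLinearMap,
        ∃ c' ∈ (W D).map ev.toLinearMap, x = c * c'}, v ≠ 0 →
      (univ.filter fun P => v P = 0).card ≤ 2 * D + g := by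
  have := H.fin D
  constructor
  · have hinj : Function.Injective (ev.toLinearMap ∘ₗ (W D).subtype) := by
      rw [← LinearMap.ker_eq_bot, LinearMap.ker_eq_bot']
      intro f hf
      exact Subtype.ext (H.injOn hS f.2 hf)
    have h1 : finrank k (LinearMap.range (ev.toLinearMap ∘ₗ (W D).subtype)) =
        finrank k (W D) := LinearMap.finrank_range_of_inj hinj
    have h2 : LinearMap.range (ev.toLinearMap ∘ₗ (W D).subtype) =
        (W D).map ev.toLinearMap := by
      rw [LinearMap.range_comp, Submodule.range_subtype]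
    rw [← h2, h1]
    exact H.lower D
  · have key : ∀ v ∈ Submodule.span k {x : S → k | ∃ c ∈ (W D).map ev.toLinearMap,
        ∃ c' ∈ (W D).map ev.toLinearMap, x = c * c'}, ∃ f ∈ W (2 * D), ev f = v := by
      intro v hv
      induction hv using Submodule.span_induction with
      | mem x hx =>
        obtain ⟨_, ⟨f, hf, rfl⟩, _, ⟨f', hf', rfl⟩, rfl⟩ := hx
        refine ⟨f * f', ?_, by simp⟩
        rw [two_mul]
        exact H.mul _ _ _ _ hf hf'
      | zero => exact ⟨0, Submodule.zero_mem _, by simp⟩
      | add x y _ _ hx hy =>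
        obtain ⟨a, ha, rfl⟩ := hx
        obtain ⟨b, hb, rfl⟩ := hy
        exact ⟨a + b, Submodule.add_mem _ ha hb, by simp⟩
      | smul c x _ hx =>
        obtain ⟨a, ha, rfl⟩ := hx
        exact ⟨c • a, Submodule.smul_mem _ _ ha, by simp⟩
    intro v hv hv0
    obtain ⟨f, hf, rfl⟩ := key v hv
    refine H.card_zeros_le hf ?_
    rintro rfl
    exact hv0 (map_zero ev)

/-- The same with index set `Fin n` and `Nat.card`. -/
theorem PoleFilt.code_fin (H : PoleFilt W ev g) {D n : ℕ} (hn : Fintype.card S = n)
    (hS : D + g < n) :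
    ∃ C : Submodule k (Fin n → k), D + 1 ≤ finrank k C + g ∧
    ∀ v ∈ Submodule.span k {x : Fin n → k | ∃ c ∈ C, ∃ c' ∈ C, x = c * c'}, v ≠ 0 →
      Nat.card {p // v p = 0} ≤ 2 * D + g := by
  classical
  subst hn
  let e : Fin (Fintype.card S) ≃ S := (Fintype.equivFin S).symm
  let L : (S → k) ≃ₗ[k] (Fin (Fintype.card S) → k) := LinearEquiv.funCongrLeft k k e
  have hL : ∀ (v : S → k) i, L v i = v (e i) := fun v i => rfl
  obtain ⟨h1, h2⟩ := H.code hS
  set C0 := (W D).map ev.toLinearMap with hC0
  refine ⟨C0.map L.toLinearMap, ?_, fun v hv hv0 => ?_⟩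
  · rw [LinearEquiv.finrank_map_eq]
    exact h1
  · have h3 : ∀ v ∈ Submodule.span k {x : Fin (Fintype.card S) → k |
        ∃ c ∈ C0.map L.toLinearMap, ∃ c' ∈ C0.map L.toLinearMap, x = c * c'},
        L.symm v ∈ Submodule.span k {x : S → k | ∃ c ∈ C0, ∃ c' ∈ C0, x = c * c'} := by
      intro v hv
      induction hv using Submodule.span_induction with
      | mem x hx =>
        obtain ⟨_, ⟨f, hf, rfl⟩, _, ⟨f', hf', rfl⟩, rfl⟩ := hx
        refine Submodule.subset_span ⟨f, hf, f', hf', ?_⟩
        apply L.injective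
        rw [L.apply_symm_apply]
        rfl
      | zero => simp
      | add x y _ _ hx hy => rw [map_add]; exact Submodule.add_mem _ hx hy
      | smul c x _ hx => rw [map_smul]; exact Submodule.smul_mem _ _ hx
    have h4 := h2 _ (h3 v hv) (by simpa using hv0)
    refine le_trans (le_of_eq ?_) h4
    have h5 : ∀ P : S, (L.symm v) P = v (e.symm P) := by
      intro P
      have := hL (L.symm v) (e.symm P)
      rw [L.apply_symm_apply, e.apply_symm_apply] at this
      exact this.symm
    rw [← Fintype.card_subtype, Nat.card_eq_fintype_card]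
    refine Fintype.card_congr (e.subtypeEquiv fun i => ?_)
    rw [h5, e.symm_apply_apply]

end Vale.Agent.P318.H591
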