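import Vale.Agent.P318.S.Defs
import Vale.Agent.P318.H321.Code

/-!
# The direction family and its bias (block S2-char)

* calculus for `CharBd` (`mono`, `comp_equiv`, `map`, `pi`, `nonzero`);
* the bias of one elementary direction `c • e_j` (`c ≠ 0`), for a functional that is trivial on
  a subspace `N` such that every nonzero linear form vanishing on `N` has few zero coordinates;
* `charBd_dirs`: `t`-fold sums of elementary directions in every block plus a uniform element of
  `N` in every block.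
-/

namespace Vale.Agent.P318.H591

open Finset
open scoped BigOperators
open Vale.Agent.P318.S
open Vale.Agent.P318.H321

/-! ### Signs -/

@[simp] lemma sgn_zero : sgn 0 = 1 := by simp [sgn]

lemma sgn_one : sgn 1 = -1 := by simp [sgn]

lemma sgn_add (a b : ZMod 2) : sgn (a + b) = sgn a * sgn b := by
  have h : ∀ a : ZMod 2, a = 0 ∨ a = 1 := by decide
  have h2 : (1 : ZMod 2) + 1 = 0 := by decide
  rcases h a with rfl | rfl <;> rcases h b with rfl | rfl <;> simp [sgn, h2]

lemma abs_sgn (a : ZMod 2) : |sgn a| = 1 := by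
  unfold sgn
  split_ifs <;> simp

lemma sgn_sum {ι : Type*} (s : Finset ι) (f : ι → ZMod 2) :
    sgn (∑ i ∈ s, f i) = ∏ i ∈ s, sgn (f i) := by
  classical
  induction s using Finset.induction_on with
  | empty => simp
  | insert a s ha ih => rw [Finset.sum_insert ha, Finset.prod_insert ha, sgn_add, ih]

/-- A nonzero functional is balanced. -/
lemma sum_sgn_eq_zero {G : Type*} [AddCommGroup G] [Fintype G] (g : G →+ ZMod 2) (hg : g ≠ 0) :
    ∑ x, sgn (g x) = 0 := by
  obtain ⟨x0, hx0⟩ : ∃ x, g x ≠ 0 := by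
    by_contra hcon
    push Not at hcon
    exact hg (by ext x; simpa using hcon x)
  have h1 : sgn (g x0) = -1 := by simp [sgn, hx0]
  have h2 : ∑ x, sgn (g x) = ∑ x, sgn (g (x + x0)) :=
    (Equiv.sum_comp (Equiv.addRight x0) (fun x => sgn (g x))).symm
  have h3 : ∑ x, sgn (g (x + x0)) = -∑ x, sgn (g x) := by
    rw [← Finset.sum_neg_distrib]
    refine Finset.sum_congr rfl fun x _ => ?_
    rw [map_add, sgn_add, h1]
    ring
  linarith

/-! ### Calculus of `CharBd` -/

section basic

variable {ι κ Y Z : Type*} [Fintype ι] [Fintype κ] [AddCommGroup Y] [AddCommGroup Z]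

/-- the unnormalised form of the bias bound -/
lemma charBd_iff [Nonempty ι] (r : ι → Y) (lam : ℝ) :
    CharBd r lam ↔ ∀ f : Y →+ ZMod 2, f ≠ 0 → |∑ i, sgn (f (r i))| ≤ lam * Fintype.card ι := by
  have hc : (0 : ℝ) < Fintype.card ι := by exact_mod_cast Fintype.card_pos
  unfold CharBd
  refine forall_congr' fun f => imp_congr_right fun _ => ?_
  rw [Fintype.expect_eq_sum_div_card, abs_div, abs_of_pos hc, div_le_iff₀ hc]

lemma _root_.Vale.Agent.P318.S.CharBd.mono {r : ι → Y} {lam lam' : ℝ} (h : CharBd r lam)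
    (hl : lam ≤ lam') : CharBd r lam' := fun f hf => (h f hf).trans hl

lemma _root_.Vale.Agent.P318.S.CharBd.comp_equiv {r : ι → Y} {lam : ℝ} (h : CharBd r lam)
    (e : κ ≃ ι) : CharBd (r ∘ e) lam := by
  intro f hf
  have := h f hf
  rwa [← Fintype.expect_equiv e (fun i => sgn (f (r (e i)))) (fun i => sgn (f (r i)))
    (fun _ => rfl)] at this

lemma _root_.Vale.Agent.P318.S.CharBd.map {r : ι → Y} {lam : ℝ} (h : CharBd r lam) (g : Y →+ Z)
    (hg : Function.Surjective g) : CharBd (fun i => g (r i)) lam := by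
  intro f hf
  refine h (f.comp g) fun h0 => hf ?_
  ext z
  obtain ⟨y, rfl⟩ := hg z
  exact DFunLike.congr_fun h0 y

/-- the sign sum of any family is at most its size -/
lemma abs_sum_sgn_le (r : ι → Y) (f : Y →+ ZMod 2) :
    |∑ i, sgn (f (r i))| ≤ Fintype.card ι := by
  refine (Finset.abs_sum_le_sum_abs _ _).trans ?_
  simp [abs_sgn]

/-- sign sum of a `t`-fold sum family -/
lemma sum_sgn_pow (f : Y →+ ZMod 2) (r : ι → Y) (t : ℕ) :
    ∑ i : Fin t → ι, sgn (f (∑ l, r (i l))) = (∑ i, sgn (f (r i))) ^ t := by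
  have h1 : ∀ i : Fin t → ι, sgn (f (∑ l, r (i l))) = ∏ l, sgn (f (r (i l))) := fun i => by
    rw [map_sum, sgn_sum]
  simp_rw [h1]
  have h2 := (Finset.prod_univ_sum (fun _ : Fin t => (univ : Finset ι))
    (fun _ i => sgn (f (r i)))).symm
  rw [Fintype.piFinset_univ] at h2
  rw [h2, Finset.prod_const, Finset.card_univ, Fintype.card_fin]

/-- sign sum of a sum of two families -/
lemma sum_sgn_prod (f : Y →+ ZMod 2) (r : ι → Y) (s : κ → Y) :
    ∑ p : ι × κ, sgn (f (r p.1 + s p.2)) = (∑ i, sgn (f (r i))) * ∑ j, sgn (f (s j)) := by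
  rw [Fintype.sum_prod_type, Finset.sum_mul_sum]
  refine Finset.sum_congr rfl fun i _ => Finset.sum_congr rfl fun j _ => ?_
  rw [map_add, sgn_add]

end basic

section Pi

variable {B : Type*} [Fintype B] [DecidableEq B] {ι Y : B → Type*} [∀ b, Fintype (ι b)]
  [∀ b, AddCommGroup (Y b)]

lemma sgn_pi (f : (∀ b, Y b) →+ ZMod 2) (y : ∀ b, Y b) :
    sgn (f y) = ∏ b, sgn ((f.comp (AddMonoidHom.single Y b)) (y b)) := by
  have h : y = ∑ b, Pi.single b (y b) := (Finset.univ_sum_single y).symm
  conv_lhs => rw [h]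
  rw [map_sum, sgn_sum]
  rfl

/-- Product of families (one in each block). -/
lemma charBd_pi [∀ b, Nonempty (ι b)] (r : ∀ b, ι b → Y b) {lam : ℝ} (hl : 0 ≤ lam)
    (h : ∀ b, CharBd (r b) lam) :
    CharBd (fun (i : ∀ b, ι b) => (fun b => r b (i b) : ∀ b, Y b)) lam := by
  rw [charBd_iff]
  intro f hf
  set fb : ∀ b, Y b →+ ZMod 2 := fun b => f.comp (AddMonoidHom.single Y b) with hfb
  have h1 : ∑ i : (∀ b, ι b), sgn (f (fun b => r b (i b))) = ∏ b, ∑ i, sgn (fb b (r b i)) := by
    rw [Finset.prod_univ_sum, Fintype.piFinset_univ]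
    refine Finset.sum_congr rfl fun i _ => ?_
    rw [sgn_pi]
  rw [h1, Finset.abs_prod, Fintype.card_pi]
  obtain ⟨b0, hb0⟩ : ∃ b, fb b ≠ 0 := by
    by_contra hcon
    push Not at hcon
    apply hf
    refine AddMonoidHom.functions_ext _ _ _ fun b y => ?_
    exact DFunLike.congr_fun (hcon b) y
  have h2 := (charBd_iff _ _).1 (h b0) (fb b0) hb0
  rw [← Finset.mul_prod_erase univ _ (mem_univ b0)]
  push_cast
  rw [← Finset.mul_prod_erase univ (fun b => (Fintype.card (ι b) : ℝ)) (mem_univ b0), ← mul_assoc]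
  refine mul_le_mul h2 ?_ (Finset.prod_nonneg fun b _ => abs_nonneg _)
    (mul_nonneg hl (Nat.cast_nonneg _))
  refine Finset.prod_le_prod (fun b _ => abs_nonneg _) fun b _ => ?_
  exact abs_sum_sgn_le (r b) (fb b)

end Pi

/-! ### Removing the zero directions -/

section nonzero

variable {ι Y : Type*} [Fintype ι] [AddCommGroup Y] [Fintype Y]

/-- separation of points by functionals in an elementary abelian `2`-group -/
lemma exists_functional (h2 : ∀ y : Y, y + y = 0) {y : Y} (hy : y ≠ 0) :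
    ∃ f : Y →+ ZMod 2, f y ≠ 0 := by
  have h2' : ∀ y : Y, 2 • y = 0 := fun y => by rw [two_nsmul]; exact h2 y
  let _ : Module (ZMod 2) Y := AddCommGroup.zmodModule h2'
  by_contra hcon
  push Not at hcon
  exact hy ((Module.forall_dual_apply_eq_zero_iff (ZMod 2) y).1 fun φ => hcon φ.toAddMonoidHom)

noncomputable instance instFintypeHom : Fintype (Y →+ ZMod 2) :=
  have : Finite (Y →+ ZMod 2) :=
    Finite.of_injective (fun f : Y →+ ZMod 2 => (f : Y → ZMod 2)) DFunLike.coe_injective
  Fintype.ofFinite _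

lemma sum_hom [DecidableEq Y] (h2 : ∀ y : Y, y + y = 0) (y : Y) :
    ∑ f : Y →+ ZMod 2, sgn (f y) = if y = 0 then (Fintype.card (Y →+ ZMod 2) : ℝ) else 0 := by
  split_ifs with h
  · subst h
    simp
  · obtain ⟨f0, hf0⟩ := exists_functional h2 h
    have := sum_sgn_eq_zero (AddMonoidHom.eval y : (Y →+ ZMod 2) →+ ZMod 2) (by
      intro h0
      exact hf0 (DFunLike.congr_fun h0 f0))
    simpa using this

lemma card_hom (h2 : ∀ y : Y, y + y = 0) :
    (Fintype.card (Y →+ ZMod 2) : ℝ) = Fintype.card Y := by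
  classical
  have h3 : ∑ y : Y, ∑ f : Y →+ ZMod 2, sgn (f y) = Fintype.card (Y →+ ZMod 2) := by
    simp_rw [sum_hom h2]
    simp
  have h4 : ∑ y : Y, ∑ f : Y →+ ZMod 2, sgn (f y) = Fintype.card Y := by
    rw [Finset.sum_comm]
    rw [Finset.sum_eq_single 0]
    · simp
    · intro f _ hf
      exact sum_sgn_eq_zero f hf
    · simp
  rw [← h3, h4]

/-- Few directions of a spread family are zero. -/
lemma card_zero_le [DecidableEq Y] [Nonempty ι] (h2 : ∀ y : Y, y + y = 0) {r : ι → Y} {lam : ℝ}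
    (h : CharBd r lam) (hl : 0 ≤ lam) :
    ((univ.filter fun i => r i = 0).card : ℝ) ≤ (lam + 1 / Fintype.card Y) * Fintype.card ι := by
  rw [charBd_iff] at h
  have hY : (0 : ℝ) < Fintype.card Y := by exact_mod_cast Fintype.card_pos
  have h3 : ∑ i, ∑ f : Y →+ ZMod 2, sgn (f (r i)) =
      (univ.filter fun i => r i = 0).card * (Fintype.card Y : ℝ) := by
    simp_rw [sum_hom h2, card_hom h2]
    rw [← Finset.sum_filter, Finset.sum_const, nsmul_eq_mul]
  have h4 : ∑ i, ∑ f : Y →+ ZMod 2, sgn (f (r i)) ≤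
      Fintype.card ι + Fintype.card Y * (lam * Fintype.card ι) := by
    rw [Finset.sum_comm, ← Finset.add_sum_erase univ _ (mem_univ (0 : Y →+ ZMod 2))]
    refine add_le_add (by simp) ?_
    calc ∑ f ∈ univ.erase (0 : Y →+ ZMod 2), ∑ i, sgn (f (r i))
        ≤ ∑ f ∈ univ.erase (0 : Y →+ ZMod 2), lam * (Fintype.card ι : ℝ) := by
          refine Finset.sum_le_sum fun f hf => (le_abs_self _).trans (h f ?_)
          exact (Finset.mem_erase.1 hf).1
      _ ≤ ∑ f : Y →+ ZMod 2, lam * (Fintype.card ι : ℝ) :=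
          Finset.sum_le_sum_of_subset_of_nonneg (Finset.erase_subset _ _)
            fun _ _ _ => by positivity
      _ = Fintype.card Y * (lam * Fintype.card ι) := by
          rw [Finset.sum_const, nsmul_eq_mul, Finset.card_univ, card_hom h2]
  rw [h3] at h4
  rw [← mul_le_mul_iff_left₀ hY]
  have h5 : (lam + 1 / (Fintype.card Y : ℝ)) * Fintype.card ι * Fintype.card Y =
      Fintype.card ι + Fintype.card Y * (lam * Fintype.card ι) := by
    field_simp
    ring
  rw [h5]
  exact h4

omit [Fintype Y] in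
lemma card_nonzero_add [DecidableEq Y] (r : ι → Y) :
    (Fintype.card {i // r i ≠ 0} : ℝ) + ((univ.filter fun i => r i = 0).card : ℝ) =
      Fintype.card ι := by
  have h1 : Fintype.card {i // r i ≠ 0} = (univ.filter fun i => ¬ r i = 0).card :=
    Fintype.card_subtype _
  have h2 := Finset.card_filter_add_card_filter_not (s := (univ : Finset ι)) (fun i => r i = 0)
  rw [h1]
  rw [Finset.card_univ] at h2
  rw [← h2]
  push_cast
  ring

lemma nonempty_nonzero [DecidableEq Y] [Nonempty ι] (h2 : ∀ y : Y, y + y = 0) {r : ι → Y}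
    {lam : ℝ} (h : CharBd r lam) (hl : 0 ≤ lam) (h1 : lam + 1 / (Fintype.card Y : ℝ) < 1) :
    Nonempty {i // r i ≠ 0} := by
  have h3 := card_zero_le h2 h hl
  have h4 := card_nonzero_add r
  have h5 : (0 : ℝ) < Fintype.card ι := by exact_mod_cast Fintype.card_pos
  have h6 : (0 : ℝ) < Fintype.card {i // r i ≠ 0} := by nlinarith
  exact Fintype.card_pos_iff.1 (by exact_mod_cast h6)

/-- The family of the nonzero directions is still spread. -/
theorem charBd_nonzero [DecidableEq Y] [Nonempty ι] (h2 : ∀ y : Y, y + y = 0) {r : ι → Y}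
    {lam : ℝ} (h : CharBd r lam) (hl : 0 ≤ lam) (h1 : lam + 1 / (Fintype.card Y : ℝ) < 1) :
    CharBd (fun i : {i // r i ≠ 0} => r i)
      ((2 * lam + 1 / Fintype.card Y) / (1 - lam - 1 / Fintype.card Y)) := by
  have hne := nonempty_nonzero h2 h hl h1
  have h3 := card_zero_le h2 h hl
  have h4 := card_nonzero_add r
  have h5 : (0 : ℝ) < Fintype.card ι := by exact_mod_cast Fintype.card_pos
  have hY : (0 : ℝ) < Fintype.card Y := by exact_mod_cast Fintype.card_pos
  rw [charBd_iff] at h ⊢
  intro f hf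
  have h6 := h f hf
  set z : ℝ := ((univ.filter fun i => r i = 0).card : ℝ) with hz
  set n : ℝ := ((Fintype.card ι : ℕ) : ℝ) with hn
  set m : ℝ := ((Fintype.card {i // r i ≠ 0} : ℕ) : ℝ) with hm
  set e : ℝ := 1 / ((Fintype.card Y : ℕ) : ℝ) with he
  have h7 : ∑ i : {i // r i ≠ 0}, sgn (f (r i)) = (∑ i, sgn (f (r i))) - z := by
    have a1 : ∑ i : {i // r i ≠ 0}, sgn (f (r i)) =
        ∑ i ∈ univ.filter (fun i => r i ≠ 0), sgn (f (r i)) :=
      (Finset.sum_subtype _ (fun c => by simp) (fun i => sgn (f (r i)))).symm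
    have a2 := Finset.sum_filter_add_sum_filter_not univ (fun i => r i = 0)
      (fun i => sgn (f (r i)))
    have a3 : ∑ i ∈ univ.filter (fun i => r i = 0), sgn (f (r i)) = z := by
      rw [hz, Finset.sum_congr rfl (g := fun _ => (1 : ℝ))]
      · simp
      · intro i hi
        rw [(Finset.mem_filter.1 hi).2]
        simp
    rw [a1]
    linarith
  rw [h7]
  have hz0 : 0 ≤ z := Nat.cast_nonneg _
  have h8 : |(∑ i, sgn (f (r i))) - z| ≤ lam * n + z := by
    refine (abs_sub _ _).trans ?_
    rw [abs_of_nonneg hz0]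
    linarith
  refine h8.trans ?_
  have h9 : 0 < 1 - lam - e := by linarith
  rw [div_mul_eq_mul_div, le_div_iff₀ h9]
  have h10 : m = n - z := by linarith
  rw [h10]
  have he0 : 0 ≤ e := by positivity
  nlinarith

/-- A simple form. -/
theorem charBd_nonzero' [DecidableEq Y] [Nonempty ι] (h2 : ∀ y : Y, y + y = 0) {r : ι → Y}
    {lam : ℝ} (h : CharBd r lam) (hl1 : lam ≤ 1 / 4) (h1 : 1 / (Fintype.card Y : ℝ) ≤ lam) :
    CharBd (fun i : {i // r i ≠ 0} => r i) (6 * lam) := by
  have hY : (0 : ℝ) < Fintype.card Y := by exact_mod_cast Fintype.card_pos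
  have hl : 0 < lam := lt_of_lt_of_le (by positivity) h1
  refine (charBd_nonzero h2 h hl.le (by linarith)).mono ?_
  rw [div_le_iff₀ (by linarith)]
  nlinarith

end nonzero

/-! ### One block -/

section block

variable {F : Type*} [Field F] [Fintype F] [DecidableEq F]
variable {ι : Type*} [Fintype ι] [DecidableEq ι]

/-- Every nonzero linear form that vanishes on `N` has at most `θ |ι|` zero coordinates. -/
def Hit (θ : ℝ) (N : Submodule F (ι → F)) : Prop :=
  ∀ w : (ι → F) →ₗ[F] F, N ≤ LinearMap.ker w → w ≠ 0 →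
    ((univ.filter fun j => w (Pi.single j 1) = 0).card : ℝ) ≤ θ * Fintype.card ι

/-- elementary direction `c e_j`, `c ≠ 0` -/
def el (p : {c : F // c ≠ 0} × ι) : ι → F := Pi.single p.2 (p.1 : F)

omit [Fintype F] [DecidableEq F] [Fintype ι] in
lemma el_eq_smul (p : {c : F // c ≠ 0} × ι) :
    el p = (p.1 : F) • (Pi.single p.2 (1 : F) : ι → F) := by
  rw [← Pi.single_smul]
  simp [el]

lemma card_ne_zero' : (Fintype.card {c : F // c ≠ 0} : ℝ) = Fintype.card F - 1 := by
  have h1 : Fintype.card {c : F // c ≠ 0} = Fintype.card F - 1 := by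
    rw [Fintype.card_subtype_compl, Fintype.card_subtype_eq]
  rw [h1, Nat.cast_sub Fintype.card_pos, Nat.cast_one]

lemma sum_ne_zero' (g : F →+ ZMod 2) :
    ∑ c : {c : F // c ≠ 0}, sgn (g c) = (∑ c, sgn (g c)) - 1 := by
  have h1 : ∑ c : {c : F // c ≠ 0}, sgn (g c) = ∑ c ∈ univ.filter (fun c : F => c ≠ 0), sgn (g c) :=
    (Finset.sum_subtype _ (fun c => by simp) (fun c => sgn (g c))).symm
  have h2 := Finset.sum_filter_add_sum_filter_not univ (fun c : F => c ≠ 0) (fun c => sgn (g c))
  have h3 : ∑ c ∈ univ.filter (fun c : F => ¬ c ≠ 0), sgn (g c) = 1 := by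
    have : univ.filter (fun c : F => ¬ c ≠ 0) = {0} := by ext c; simp
    rw [this]
    simp
  linarith

/-- The bias of an elementary direction for a functional trivial on `N`. -/
lemma abs_sum_el_le {θ : ℝ} {N : Submodule F (ι → F)} (h : Hit θ N)
    (f : (ι → F) →+ ZMod 2) (hf : f ≠ 0) (hN : ∀ v ∈ N, f v = 0) :
    |∑ p : {c : F // c ≠ 0} × ι, sgn (f (el p))| ≤
      max θ (1 / ((Fintype.card F : ℝ) - 1)) * Fintype.card ({c : F // c ≠ 0} × ι) := by
  classical
  set q : ℝ := ((Fintype.card F : ℕ) : ℝ) with hq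
  have hq1 : 1 < q := by
    rw [hq]
    exact_mod_cast Fintype.one_lt_card (α := F)
  set g : ι → F →+ ZMod 2 := fun j => f.comp (AddMonoidHom.single (fun _ => F) j) with hg
  -- the largest subspace on which `f` is trivial
  let U : Submodule F (ι → F) :=
    { carrier := {v | ∀ c : F, f (c • v) = 0}
      add_mem' := by
        intro a b ha hb c
        rw [smul_add, map_add, ha c, hb c, add_zero]
      zero_mem' := by intro c; simp
      smul_mem' := by
        intro d v hv c
        rw [smul_smul]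
        exact hv _ }
  have hU : U < ⊤ := by
    refine lt_top_iff_ne_top.2 fun htop => hf (AddMonoidHom.ext fun v => ?_)
    have hv : v ∈ U := by rw [htop]; trivial
    simpa using hv 1
  obtain ⟨w, hw0, hwU⟩ := Submodule.exists_le_ker_of_lt_top U hU
  have hNU : N ≤ U := fun v hv c => hN _ (N.smul_mem c hv)
  have hcount := h w (hNU.trans hwU) hw0
  -- the elementary sums
  have hel : ∀ j, ∑ c : {c : F // c ≠ 0}, sgn (f (el (c, j))) =
      if g j = 0 then q - 1 else -1 := by
    intro j
    have h1 : ∑ c : {c : F // c ≠ 0}, sgn (f (el (c, j))) =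
        ∑ c : {c : F // c ≠ 0}, sgn (g j c) := rfl
    rw [h1, sum_ne_zero']
    split_ifs with h0
    · rw [h0]
      simp [hq]
    · rw [sum_sgn_eq_zero _ h0]
      ring
  have hsum : ∑ p : {c : F // c ≠ 0} × ι, sgn (f (el p)) =
      ∑ j, if g j = 0 then q - 1 else -1 := by
    rw [Fintype.sum_prod_type_right]
    exact Finset.sum_congr rfl fun j _ => hel j
  have hsub : (univ.filter fun j => g j = 0) ⊆ univ.filter fun j => w (Pi.single j 1) = 0 := by
    intro j hj
    simp only [mem_filter, mem_univ, true_and] at hj ⊢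
    have : (Pi.single j 1 : ι → F) ∈ U := by
      intro c
      have h1 := DFunLike.congr_fun hj c
      have h2 : c • (Pi.single j 1 : ι → F) = Pi.single j c := by
        rw [← Pi.single_smul]
        simp
      rw [h2]
      exact h1
    exact hwU this
  have hN0 : ((univ.filter fun j => g j = 0).card : ℝ) ≤ θ * Fintype.card ι :=
    le_trans (by exact_mod_cast Finset.card_le_card hsub) hcount
  set n0 : ℝ := ((univ.filter fun j => g j = 0).card : ℝ) with hn0
  have hval : (∑ j, if g j = 0 then q - 1 else -1 : ℝ) = n0 * q - Fintype.card ι := by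
    have h1 : ∀ j, (if g j = 0 then q - 1 else -1 : ℝ) = (if g j = 0 then q else 0) - 1 := by
      intro j; split_ifs <;> ring
    simp_rw [h1]
    rw [Finset.sum_sub_distrib, ← Finset.sum_filter, Finset.sum_const]
    simp [hn0]
  have hn00 : 0 ≤ n0 := Nat.cast_nonneg _
  have hn0n : n0 ≤ Fintype.card ι := by
    rw [hn0]
    exact_mod_cast Finset.card_le_univ _
  rw [hsum, hval, Fintype.card_prod]
  push_cast
  rw [card_ne_zero', ← hq]
  have hnn : (0 : ℝ) ≤ Fintype.card ι := Nat.cast_nonneg _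
  have hqpos : 0 < q - 1 := by linarith
  rw [abs_le]
  constructor
  · have h1 : 1 / (q - 1) * ((q - 1) * Fintype.card ι) ≤
        max θ (1 / (q - 1)) * ((q - 1) * Fintype.card ι) :=
      mul_le_mul_of_nonneg_right (le_max_right _ _) (by positivity)
    have h2 : 1 / (q - 1) * ((q - 1) * Fintype.card ι) = (Fintype.card ι : ℝ) := by
      field_simp
    nlinarith
  · have h1 : θ * ((q - 1) * Fintype.card ι) ≤
        max θ (1 / (q - 1)) * ((q - 1) * Fintype.card ι) :=
      mul_le_mul_of_nonneg_right (le_max_left _ _) (by positivity)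
    nlinarith

/-- Directions of one block: `t` elementary directions and an element of `N`. -/
def blk (N : Submodule F (ι → F)) (t : ℕ) (p : (Fin t → {c : F // c ≠ 0} × ι) × N) : ι → F :=
  (∑ l, el (p.1 l)) + (p.2 : ι → F)

lemma charBd_blk [Nonempty ι] {θ : ℝ} {N : Submodule F (ι → F)} [Fintype N] (h : Hit θ N) (t : ℕ) :
    CharBd (blk N t) (max θ (1 / ((Fintype.card F : ℝ) - 1)) ^ t) := by
  have hq1 : (1 : ℝ) < Fintype.card F := by exact_mod_cast Fintype.one_lt_card
  have : Nonempty {c : F // c ≠ 0} := ⟨⟨1, one_ne_zero⟩⟩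
  rw [charBd_iff]
  intro f hf
  have h1 : ∑ p : (Fin t → {c : F // c ≠ 0} × ι) × N, sgn (f (blk N t p)) =
      (∑ i : Fin t → {c : F // c ≠ 0} × ι, sgn (f (∑ l, el (i l)))) *
        ∑ v : N, sgn (f (v : ι → F)) :=
    sum_sgn_prod f (fun i : Fin t → {c : F // c ≠ 0} × ι => ∑ l, el (i l))
      (fun v : N => (v : ι → F))
  rw [h1]
  have hmax : 0 ≤ max θ (1 / ((Fintype.card F : ℝ) - 1)) :=
    le_max_of_le_right (by apply one_div_nonneg.2; linarith)
  by_cases hN : ∀ v ∈ N, f v = 0
  · have h2 : ∑ v : N, sgn (f (v : ι → F)) = Fintype.card N := by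
      have : ∀ v : N, sgn (f (v : ι → F)) = 1 := fun v => by rw [hN v v.2]; simp
      simp [this]
    rw [h2, sum_sgn_pow, abs_mul, abs_pow, Fintype.card_prod, Fintype.card_fun, Fintype.card_fin]
    have h3 := abs_sum_el_le h f hf hN
    push_cast at h3 ⊢
    rw [abs_of_nonneg (Nat.cast_nonneg (Fintype.card N) : (0 : ℝ) ≤ _), ← mul_assoc, ← mul_pow]
    exact mul_le_mul_of_nonneg_right (pow_le_pow_left₀ (abs_nonneg _) h3 t) (Nat.cast_nonneg _)
  · have h2 : ∑ v : N, sgn (f (v : ι → F)) = 0 := by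
      refine sum_sgn_eq_zero (f.comp N.subtype.toAddMonoidHom) fun h0 => hN fun v hv => ?_
      exact DFunLike.congr_fun h0 ⟨v, hv⟩
    rw [h2, mul_zero, abs_zero]
    positivity

/-- Directions: independent in every block. -/
def dirs {B : Type*} (N : Submodule F (ι → F)) (t : ℕ)
    (p : B → (Fin t → {c : F // c ≠ 0} × ι) × N) : B → ι → F := fun b => blk N t (p b)

theorem charBd_dirs {B : Type*} [Fintype B] [DecidableEq B] [Nonempty ι] {θ : ℝ}
    {N : Submodule F (ι → F)} [Fintype N] (h : Hit θ N) (t : ℕ) :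
    CharBd (dirs (B := B) N t) (max θ (1 / ((Fintype.card F : ℝ) - 1)) ^ t) := by
  have hq1 : (1 : ℝ) < Fintype.card F := by exact_mod_cast Fintype.one_lt_card
  have hmax : 0 ≤ max θ (1 / ((Fintype.card F : ℝ) - 1)) :=
    le_max_of_le_right (by apply one_div_nonneg.2; linarith)
  have : Nonempty {c : F // c ≠ 0} := ⟨⟨1, one_ne_zero⟩⟩
  exact charBd_pi (fun _ : B => blk N t) (pow_nonneg hmax t) fun _ => charBd_blk h t

/-! ### The nonzero directions of one block, and the product over the blocks -/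

/-- Index type of the nonzero directions of one block. -/
abbrev BIx (N : Submodule F (ι → F)) (t : ℕ) : Type _ :=
  {p : (Fin t → {c : F // c ≠ 0} × ι) × N // blk N t p ≠ 0}

/-- The nonzero directions of one block. -/
def bdir (N : Submodule F (ι → F)) (t : ℕ) (p : BIx N t) : ι → F := blk N t p.1

omit [Fintype F] [DecidableEq F] [Fintype ι] in
lemma bdir_ne_zero (N : Submodule F (ι → F)) (t : ℕ) (p : BIx N t) : bdir N t p ≠ 0 := p.2

/-- The bound for the block directions. -/
noncomputable def lamB (F : Type*) [Field F] [Fintype F] (θ : ℝ) (t : ℕ) : ℝ :=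
  max θ (1 / ((Fintype.card F : ℝ) - 1)) ^ t

omit [DecidableEq F] in
lemma lamB_pos (θ : ℝ) (t : ℕ) : 0 < lamB F θ t := by
  have hq1 : (1 : ℝ) < Fintype.card F := by exact_mod_cast Fintype.one_lt_card
  exact pow_pos (lt_max_of_lt_right (by apply one_div_pos.2; linarith)) t

omit [DecidableEq F] in
lemma one_div_card_le_lamB (θ : ℝ) {t : ℕ} (ht : t ≤ Fintype.card ι) :
    1 / (Fintype.card (ι → F) : ℝ) ≤ lamB F θ t := by
  have hq1 : (1 : ℝ) < Fintype.card F := by exact_mod_cast Fintype.one_lt_card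
  have h1 : 1 / (Fintype.card F : ℝ) ≤ max θ (1 / ((Fintype.card F : ℝ) - 1)) :=
    le_max_of_le_right (one_div_le_one_div_of_le (by linarith) (by linarith))
  have h2 : (1 / (Fintype.card F : ℝ)) ^ t ≤ lamB F θ t :=
    pow_le_pow_left₀ (by positivity) h1 t
  refine le_trans ?_ h2
  rw [Fintype.card_fun, one_div_pow]
  push_cast
  exact one_div_le_one_div_of_le (by positivity) (pow_le_pow_right₀ hq1.le ht)

omit [Fintype F] [DecidableEq F] [Fintype ι] [DecidableEq ι] in
lemma add_self_zero [CharP F 2] (y : ι → F) : y + y = 0 := by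
  funext i
  exact CharTwo.add_self_eq_zero (y i)

theorem charBd_bdir [CharP F 2] [Nonempty ι] {θ : ℝ} {N : Submodule F (ι → F)} [Fintype N]
    (h : Hit θ N) {t : ℕ} (ht : t ≤ Fintype.card ι) (hl : lamB F θ t ≤ 1 / 4) :
    CharBd (bdir N t) (6 * lamB F θ t) := by
  have : Nonempty {c : F // c ≠ 0} := ⟨⟨1, one_ne_zero⟩⟩
  exact charBd_nonzero' add_self_zero (charBd_blk h t) hl (one_div_card_le_lamB θ ht)

theorem nonempty_bix [CharP F 2] [Nonempty ι] {θ : ℝ} {N : Submodule F (ι → F)} [Fintype N]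
    (h : Hit θ N) {t : ℕ} (ht : t ≤ Fintype.card ι) (hl : lamB F θ t ≤ 1 / 4) :
    Nonempty (BIx N t) := by
  have : Nonempty {c : F // c ≠ 0} := ⟨⟨1, one_ne_zero⟩⟩
  have h1 := one_div_card_le_lamB (F := F) θ ht
  refine nonempty_nonzero add_self_zero (charBd_blk h t) (lamB_pos θ t).le ?_
  have h2 : lamB F θ t = max θ (1 / ((Fintype.card F : ℝ) - 1)) ^ t := rfl
  rw [← h2]
  linarith

/-- Product family over any finite set of blocks (for `B = Fin 3` this is `dir3 (bdir N t)`). -/
theorem charBd_bdir_pi {B : Type*} [Fintype B] [DecidableEq B] [CharP F 2] [Nonempty ι] {θ : ℝ}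
    {N : Submodule F (ι → F)} [Fintype N]
    (h : Hit θ N) {t : ℕ} (ht : t ≤ Fintype.card ι) (hl : lamB F θ t ≤ 1 / 4) :
    CharBd (fun (i : B → BIx N t) => (fun b => bdir N t (i b) : B → ι → F))
      (6 * lamB F θ t) := by
  have := nonempty_bix h ht hl
  have h0 := lamB_pos (F := F) θ t
  exact charBd_pi (fun _ : B => bdir N t) (by positivity) fun _ => charBd_bdir h ht hl

end block

/-! ### The space `N = ker π` of a good code -/

section code

variable {F : Type*} [Field F] {ι κ : Type*} [Fintype ι] [DecidableEq ι] [Fintype κ]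

/-- `π v = ∑ j, v j • a j (a j)ᵀ` -/
def pim (a : ι → κ → F) : (ι → F) →ₗ[F] (κ → κ → F) where
  toFun v := fun i l => ∑ j, v j * (a j i * a j l)
  map_add' v w := by
    ext i l
    simp [add_mul, Finset.sum_add_distrib]
  map_smul' c v := by
    ext i l
    simp [Finset.mul_sum, mul_assoc]

omit [Fintype κ] in
lemma pim_single (a : ι → κ → F) (j : ι) (i l : κ) :
    pim a (Pi.single j 1) i l = a j i * a j l := by
  simp [pim, Pi.single_apply]

theorem hit_ker [DecidableEq κ] [DecidableEq F] {θ : ℝ} {a : ι → κ → F} (h : Good θ a) :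
    Hit θ (LinearMap.ker (pim a)) := by
  classical
  intro w hw hw0
  -- `w` factors through `π`
  have h1 : w ∈ (LinearMap.ker (pim a)).dualAnnihilator := by
    rw [Submodule.mem_dualAnnihilator]
    intro v hv
    exact hw hv
  rw [← LinearMap.range_dualMap_eq_dualAnnihilator_ker] at h1
  obtain ⟨L, hL⟩ := h1
  set M : κ → κ → F := fun i l => L (Pi.single i (Pi.single l 1)) with hM
  have h2 : ∀ j, w (Pi.single j 1) = quad M (a j) := by
    intro j
    rw [← hL, LinearMap.dualMap_apply]
    have h3 : pim a (Pi.single j 1) =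
        ∑ i, ∑ l, (a j i * a j l) • (Pi.single i (Pi.single l 1) : κ → κ → F) := by
      ext i l
      rw [pim_single]
      simp only [Finset.sum_apply, Pi.smul_apply, smul_eq_mul]
      rw [Finset.sum_eq_single i]
      · rw [Finset.sum_eq_single l]
        · simp
        · intro l' _ hl'
          simp [hl'.symm]
        · simp
      · intro i' _ hi'
        refine Finset.sum_eq_zero fun l' _ => ?_
        simp [hi'.symm]
      · simp
    rw [h3, map_sum]
    unfold quad
    refine Finset.sum_congr rfl fun i _ => ?_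
    rw [map_sum]
    refine Finset.sum_congr rfl fun l _ => ?_
    rw [map_smul, smul_eq_mul, hM, mul_comm]
  have h4 : ∃ j, quad M (a j) ≠ 0 := by
    by_contra hcon
    push Not at hcon
    apply hw0
    refine LinearMap.pi_ext' fun j => ?_
    ext
    simp [h2, hcon]
  have h5 := h.dist M h4
  refine le_trans (le_of_eq ?_) h5
  congr 2
  ext j
  simp [h2]

end code

end Vale.Agent.P318.H591
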